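import Vale.Agent.P144U.Defs

/-!
The dug sets have the shape `ShapeU`.
-/

namespace Vale.Agent.P144Z

open Finset

theorem ShapeW.monoN {M : ℕ} {I Tp : Finset (Tor M)} {α κ : ℝ} {N N' r : ℕ}
    (h : ShapeW I Tp α κ N r) (hN : N ≤ N') : ShapeW I Tp α κ N' r := by
  have hm : ∀ s, N * (s + 1) ≤ N' * (s + 1) := fun s => Nat.mul_le_mul_right _ hN
  exact ⟨⟨fun y s hs => (h.conn y s ((hm s).trans hs)).mono' le_rfl (hm s),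
    fun f hf s hs => (h.cork f hf s ((hm s).trans hs)).imp fun _ k => ⟨k.1.trans (hm s), k.2⟩,
    fun y => (h.tr y).mono' le_rfl hN⟩, h.sep,
    fun y ρ h1 h2 => h.far y ρ h1 fun p hp => (hm ρ).trans (h2 p hp)⟩

theorem digU_of (hC : ChStmt) (hS : SmallW) (hU : UniW) (hR : RghZ) : DigU := by
  obtain ⟨t₁, hC⟩ := hC
  obtain ⟨N₀, hS⟩ := hS
  obtain ⟨N, hN, hU⟩ := hU N₀
  refine ⟨N, fun K hK => ?_⟩
  obtain ⟨K', hU⟩ := hU K hK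
  refine ⟨K', fun α hα => ?_⟩
  obtain ⟨K₁, κ₁, hκ₁, hS⟩ := hS α hα
  obtain ⟨K₀, t₂, κ₂, hκ₂, hU⟩ := hU α hα (2 * (K₁ + 1))
  obtain ⟨t₃, κ₃, hκ₃, hR⟩ := hR α hα
  refine ⟨min κ₁ (min κ₂ κ₃), by positivity, K₀, t₁ + t₂ + t₃ + 5 * N₀ + 1, fun r₀ hr₀ => ?_⟩
  obtain ⟨t, ht⟩ : ∃ t, t = (K₁ + 1) * (r₀ + 1) := ⟨_, rfl⟩
  have t1 : r₀ + 1 ≤ t := ht ▸ Nat.le_mul_of_pos_left _ (by omega)
  have t2 : K₁ * (r₀ + 1) ≤ t := ht ▸ Nat.mul_le_mul_right _ (by omega)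
  have t3 : t ≤ 2 * (K₁ + 1) * r₀ := by
    rw [ht, mul_comm 2, mul_assoc]
    exact Nat.mul_le_mul_left _ (by omega)
  obtain ⟨N₁, Q, hU⟩ := hU t (by omega)
  obtain ⟨N₂, hR⟩ := hR t (by omega)
  refine ⟨t, N₁, 16 * (Q + t), by omega, by omega, fun κ hκ hκ' Λ P r T h hQ hΛ => ?_⟩
  simp only [le_min_iff] at hκ'
  obtain ⟨k1, k2, k3⟩ := hκ'
  have hP : ∀ p ∈ P, 2 * zd p 0 ≤ 2 * T + t ∧ ∃ v, v ∉ Λ ∧ 2 * zd v p ≤ t := by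
    intro p hp
    obtain ⟨un, S₁, S₂, ν₁, ν₂, a1, a2⟩ := h.tip p hp
    obtain ⟨⟨v, v1, v2⟩, ⟨f, f1, f2⟩, -⟩ := hR κ hκ.le k3 un _ _ _ _ a1.1
    refine ⟨?_, p + v, fun k => v2 ((a2 v (by omega)).1 k), ?_⟩
    · have := hΛ _ ((a2 f (by omega)).2 f2)
      simp only [zd, Prod.fst_add, Prod.snd_add, Prod.fst_zero, Prod.snd_zero] at this f1 ⊢
      omega
    · simp only [zd, Prod.fst_add, Prod.snd_add, Prod.fst_zero, Prod.snd_zero] at v1 ⊢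
      omega
  obtain ⟨c, c1, hC⟩ := hC t (by omega) α κ Λ P r T (r / 4) h hΛ
    (fun p hp => by have := (hP p hp).1; omega) (by omega)
  refine ⟨c, c1, hP, fun M _ hM => ?_⟩
  obtain ⟨s1, Tc, s2, hC⟩ := hC M hM
  have q1 : 1 ≤ r / (16 * (Q + t)) := (Nat.le_div_iff_mul_le (by omega)).2 (by omega)
  have q2 : 16 * (Q + t) * (r / (16 * (Q + t))) ≤ r := Nat.mul_div_le _ _
  have q3 : r / (16 * (Q + t)) ≤ r := Nat.div_le_self _ _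
  generalize r / (16 * (Q + t)) = r' at q1 q2 q3
  have q4 : Q * (r' + 1) ≤ r / 4 := by
    have : Q * (r' + 1) ≤ Q * (2 * r') := Nat.mul_le_mul_left _ (by omega)
    have e : 16 * (Q + t) * r' = 8 * (Q * (2 * r')) + 16 * (t * r') := by ring
    omega
  have w := hS κ hκ k1 M _ _ Tc t _ r₀ hC s2 t2 (by omega) (by omega)
  obtain ⟨u1, u2, u3⟩ := hU κ hκ k2 M _ _ Tc _ r₀ r' hC w.toRgh (by omega) t3 q4 (by omega)
  exact ⟨Tc, w.monoN hN, u1, u2, fun p hp p' hp' e => q3.trans_lt (s1 p hp p' hp' e), u3⟩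

end Vale.Agent.P144Z
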